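import Vale.Agent.P362.MathlibUsed

/-! Official definitions for the final statement (kept small so that they print in full). -/

namespace Vale.Agent.P362.Stmt

/-- Deterministic decision trees querying bits indexed by `ι`. -/
inductive Tree (ι : Type) : Type
  | leaf (b : Bool) : Tree ι
  | node (i : ι) (t0 t1 : Tree ι) : Tree ι

/-- The output of the tree on input `x`. -/
def Tree.eval {ι : Type} (x : ι → Bool) : Tree ι → Bool
  | .leaf b => b
  | .node i t0 t1 => if x i then t1.eval x else t0.eval x

/-- The worst-case number of queries of the tree. -/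
def Tree.depth {ι : Type} : Tree ι → ℕ
  | .leaf _ => 0
  | .node _ t0 t1 => max t0.depth t1.depth + 1

/-- A randomized algorithm is a probability distribution over decision trees. It computes `f`
with `T` queries if all its trees have depth at most `T` and, on every input `x`, its output is
`f x` with probability at least `2/3`. -/
def RandComputes {n : ℕ} (f : (Fin n → Bool) → Bool) (T : ℕ) : Prop :=
  ∃ p : PMF (Tree (Fin n)), (∀ t ∈ p.support, t.depth ≤ T) ∧
    ∀ x, 2 / 3 ≤ p.toOuterMeasure {t | t.eval x = f x}

/-- Randomized query complexity. -/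
noncomputable def R {n : ℕ} (f : (Fin n → Bool) → Bool) : ℕ := sInf {T | RandComputes f T}

/-- The query unitary `|i,b,z⟩ ↦ |i, b ⊕ x i, z⟩` as a matrix (`z` is the workspace). -/
def oracle {n : ℕ} (m : ℕ) (x : Fin n → Bool) :
    Matrix (Fin n × Bool × Fin m) (Fin n × Bool × Fin m) ℂ :=
  fun a b => if a = (b.1, xor b.2.1 (x b.1), b.2.2) then 1 else 0

/-- The state `U_T O U_{T-1} O ... O U_0 |s⟩`. -/
noncomputable def run {β : Type} [Fintype β] [DecidableEq β] (O : Matrix β β ℂ)
    (U : ℕ → Matrix β β ℂ) (s : β) : ℕ → β → ℂ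
  | 0 => (U 0).mulVec (Pi.single s 1)
  | t + 1 => (U (t + 1)).mulVec (O.mulVec (run O U s t))

/-- `f` is computed by a quantum algorithm making `T` queries: there are a workspace dimension
`m`, input-independent unitaries `U 0, ..., U T`, an initial basis state `s` and an output map
`out` such that, for every input `x`, measuring the final state in the computational basis and
applying `out` gives `f x` with probability at least `2/3`. -/
def QuantComputes {n : ℕ} (f : (Fin n → Bool) → Bool) (T : ℕ) : Prop :=
  ∃ (m : ℕ) (U : ℕ → Matrix (Fin n × Bool × Fin m) (Fin n × Bool × Fin m) ℂ)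
    (s : Fin n × Bool × Fin m) (out : Fin n × Bool × Fin m → Bool),
    (∀ t, U t ∈ Matrix.unitaryGroup (Fin n × Bool × Fin m) ℂ) ∧
    ∀ x, 2 / 3 ≤ ∑ w, if out w = f x then ‖run (oracle m x) U s T w‖ ^ 2 else 0

/-- Quantum query complexity. -/
noncomputable def Q {n : ℕ} (f : (Fin n → Bool) → Bool) : ℕ := sInf {T | QuantComputes f T}

/-- `R(f) ≤ C (1 + Q(f))^α` for all total Boolean functions, for some constant `C`. -/
def PolyBound (α : ℝ) : Prop :=
  ∃ C : ℝ, ∀ n : ℕ, 1 ≤ n → ∀ f : (Fin n → Bool) → Bool,
    (R f : ℝ) ≤ C * (1 + (Q f : ℝ)) ^ α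

/-- The optimal exponent. -/
noncomputable def alphaTot : ℝ := sInf {α : ℝ | 0 ≤ α ∧ PolyBound α}

end Vale.Agent.P362.Stmt
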